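import Vale.Agent.P325.H111.K2.Stmts

/-!
# The pruning lemma: directions, and functions with small support have a large boundary
-/

namespace Vale.Agent.P325.H756.K2

open Finset Vale.Agent.P325.K2

/-! ### Directions -/

section

variable {n M : ℕ}

open Classical in
/-- A nonempty set with many points on each of its lines is large. -/
theorem card_of_lines (B : Finset (Fin n → Fin M)) (s : ℝ) (hs : 0 ≤ s)
    (h : ∀ x ∈ B, ∀ k, s ≤ (#{v : Fin M | Function.update x k v ∈ B} : ℝ)) (T : Finset (Fin n)) :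
    ∀ x ∈ B, s ^ #T ≤ (#{y ∈ B | ∀ i, i ∉ T → y i = x i} : ℝ) := by
  induction T using Finset.induction_on with
  | empty =>
    intro x hx
    have h1 : x ∈ ({y ∈ B | ∀ i, i ∉ (∅ : Finset (Fin n)) → y i = x i} : Finset _) := by
      simp [hx]
    have h2 : 1 ≤ #{y ∈ B | ∀ i, i ∉ (∅ : Finset (Fin n)) → y i = x i} :=
      Finset.card_pos.2 ⟨x, h1⟩
    simp only [card_empty, pow_zero]
    exact_mod_cast h2
  | insert k T hk ih =>
    intro x hx
    rw [card_insert_of_notMem hk, pow_succ, mul_comm]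
    let V : Finset (Fin M) := {v | Function.update x k v ∈ B}
    let U : Fin M → Finset (Fin n → Fin M) := fun v =>
      {y ∈ B | ∀ i, i ∉ T → y i = Function.update x k v i}
    have hU : ∀ v ∈ V, ∀ y ∈ U v, y k = v := by
      intro v _ y hy
      have := (mem_filter.1 hy).2 k hk
      rwa [Function.update_self] at this
    have h1 : V.biUnion U ⊆ {y ∈ B | ∀ i, i ∉ insert k T → y i = x i} := by
      intro y hy
      obtain ⟨v, _, hy2⟩ := mem_biUnion.1 hy
      obtain ⟨h3, h4⟩ := mem_filter.1 hy2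
      refine mem_filter.2 ⟨h3, fun i hi => ?_⟩
      rw [mem_insert, not_or] at hi
      rw [h4 i hi.2, Function.update_of_ne hi.1]
    have h2 : (V.biUnion U).card = ∑ v ∈ V, #(U v) := by
      refine card_biUnion ?_
      intro v hv w hw hvw
      change Disjoint (U v) (U w)
      rw [Finset.disjoint_left]
      intro y hy hy2
      exact hvw ((hU v hv y hy).symm.trans (hU w hw y hy2))
    calc s * s ^ #T ≤ (#V : ℝ) * s ^ #T :=
          mul_le_mul_of_nonneg_right (h x hx k) (pow_nonneg hs _)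
      _ = ∑ _v ∈ V, s ^ #T := by rw [sum_const, nsmul_eq_mul]
      _ ≤ ∑ v ∈ V, (#(U v) : ℝ) := by
          refine sum_le_sum fun v hv => ih _ ?_
          exact (mem_filter.1 hv).2
      _ = ((V.biUnion U).card : ℝ) := by rw [h2]; push_cast; rfl
      _ ≤ _ := by exact_mod_cast card_le_card h1

open Classical in
/-- The points of the set on a line. -/
theorem exists_line (hn : 0 < n) (B : Finset (Fin n → Fin M)) (hB : B.Nonempty)
    (h : (#B : ℝ) * (4 * n) ^ n < (M : ℝ) ^ n) :
    ∃ x ∈ B, ∃ k, (#{v : Fin M | Function.update x k v ∈ B} : ℝ) * (4 * n) ≤ M := by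
  by_contra hc
  push Not at hc
  have hn' : (0 : ℝ) < 4 * n := by positivity
  obtain ⟨x, hx⟩ := hB
  have h1 := card_of_lines B (M / (4 * n)) (by positivity)
    (fun x hx k => by rw [div_le_iff₀ hn']; exact (hc x hx k).le) univ x hx
  have h2 : ({y ∈ B | ∀ i, i ∉ (univ : Finset (Fin n)) → y i = x i} : Finset _) = B := by
    ext y; simp
  rw [h2, card_univ, Fintype.card_fin, div_pow, div_le_iff₀ (by positivity)] at h1
  linarith

open Classical in
theorem dir_aux (hn : 0 < n) (m : ℕ) : ∀ B : Finset (Fin n → Fin M), #B ≤ m →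
    (#B : ℝ) * (4 * n) ^ n < (M : ℝ) ^ n →
    ∃ dir : (Fin n → Fin M) → Fin n, ∀ (k : Fin n) (x : Fin n → Fin M),
      (#{v : Fin M | Function.update x k v ∈ B ∧ dir (Function.update x k v) = k} : ℝ) *
        (4 * n) ≤ M := by
  induction m with
  | zero =>
    intro B hB _
    have hB0 : B = ∅ := card_eq_zero.1 (Nat.le_zero.1 hB)
    subst hB0
    refine ⟨fun _ => ⟨0, hn⟩, fun k x => ?_⟩
    simp
  | succ m ih =>
    intro B hB hlt
    rcases B.eq_empty_or_nonempty with hB0 | hB0
    · subst hB0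
      refine ⟨fun _ => ⟨0, hn⟩, fun k x => ?_⟩
      simp
    obtain ⟨x0, hx0, k0, hk0⟩ := exists_line hn B hB0 hlt
    let ℓ : (Fin n → Fin M) → Prop := fun y => ∀ i, i ≠ k0 → y i = x0 i
    let B' : Finset (Fin n → Fin M) := {y ∈ B | ¬ ℓ y}
    have hsub : B' ⊆ B := filter_subset _ _
    have hlt' : #B' < #B := by
      refine card_lt_card ((ssubset_iff_of_subset hsub).2 ⟨x0, hx0, ?_⟩)
      intro hmem
      exact (mem_filter.1 hmem).2 fun i _ => rfl
    have hlt2 : (#B' : ℝ) * (4 * n) ^ n < (M : ℝ) ^ n := by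
      refine lt_of_le_of_lt ?_ hlt
      have : (#B' : ℝ) ≤ #B := by exact_mod_cast hlt'.le
      gcongr
    obtain ⟨dir', hdir'⟩ := ih B' (by omega) hlt2
    refine ⟨fun y => if ℓ y then k0 else dir' y, fun k x => ?_⟩
    by_cases hc : ∃ v, Function.update x k v ∈ B ∧
        (if ℓ (Function.update x k v) then k0 else dir' (Function.update x k v)) = k ∧
        ℓ (Function.update x k v)
    · obtain ⟨v0, hv0, hv1, hv2⟩ := hc
      rw [if_pos hv2] at hv1
      subst hv1
      -- the line is the chosen line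
      have hx : ∀ i, i ≠ k0 → x i = x0 i := by
        intro i hi
        have := hv2 i hi
        rwa [Function.update_of_ne hi] at this
      have hupd : ∀ v, Function.update x k0 v = Function.update x0 k0 v := by
        intro v
        funext i
        by_cases hi : i = k0
        · subst hi; rw [Function.update_self, Function.update_self]
        · rw [Function.update_of_ne hi, Function.update_of_ne hi, hx i hi]
      refine le_trans ?_ hk0
      refine mul_le_mul_of_nonneg_right ?_ (by positivity)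
      refine Nat.cast_le.2 (card_le_card fun v hv => ?_)
      rw [mem_filter] at hv ⊢
      rw [hupd] at hv
      exact ⟨mem_univ _, hv.2.1⟩
    · push Not at hc
      refine le_trans ?_ (hdir' k x)
      refine mul_le_mul_of_nonneg_right ?_ (by positivity)
      refine Nat.cast_le.2 (card_le_card fun v hv => ?_)
      rw [mem_filter] at hv ⊢
      have h1 := hc v hv.2.1 hv.2.2
      have h2 : (if ℓ (Function.update x k v) then k0 else dir' (Function.update x k v)) = k :=
        hv.2.2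
      rw [if_neg h1] at h2
      exact ⟨mem_univ _, mem_filter.2 ⟨hv.2.1, h1⟩, h2⟩

end

theorem dirThm : DirThm := fun _ _ B hn h => dir_aux hn _ B le_rfl h

/-! ### Lines -/

section

variable {n M : ℕ}

/-- A change of the coordinate `k`, together with the old coordinate. -/
def swp (k : Fin n) : (Fin n → Fin M) × Fin M ≃ (Fin n → Fin M) × Fin M where
  toFun p := (Function.update p.1 k p.2, p.1 k)
  invFun p := (Function.update p.1 k p.2, p.1 k)
  left_inv p := by
    ext1
    · simp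
    · simp
  right_inv p := by
    ext1
    · simp
    · simp

theorem sum_swp (k : Fin n) (F : (Fin n → Fin M) → Fin M → ℝ) :
    ∑ a, ∑ v, F a v = ∑ b, ∑ w, F (Function.update b k w) (b k) := by
  rw [← Fintype.sum_prod_type', ← Fintype.sum_prod_type', ← Equiv.sum_comp (swp k)]
  rfl

/-- Sums over the lines through the points of a set with few points on each line. -/
theorem sum_lines (k : Fin n) (P : (Fin n → Fin M) → Prop) [DecidablePred P] (q : ℝ)
    (hP : ∀ x, (#{v : Fin M | P (Function.update x k v)} : ℝ) ≤ q) (f : (Fin n → Fin M) → ℝ)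
    (hf : ∀ a, 0 ≤ f a) :
    (∑ a, if P a then ∑ v, f (Function.update a k v) else 0) ≤ q * ∑ b, f b := by
  have h1 : (∑ a, if P a then ∑ v, f (Function.update a k v) else 0) =
      ∑ a, ∑ v, if P a then f (Function.update a k v) else 0 := by
    refine sum_congr rfl fun a _ => ?_
    split_ifs with h
    · rfl
    · simp
  rw [h1, sum_swp k, mul_sum]
  refine sum_le_sum fun b _ => ?_
  have h2 : ∀ w, (if P (Function.update b k w) then
      f (Function.update (Function.update b k w) k (b k)) else 0) =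
      if P (Function.update b k w) then f b else 0 := by
    intro w
    rw [Function.update_idem, Function.update_eq_self]
  rw [sum_congr rfl fun w _ => h2 w, ← sum_filter, sum_const, nsmul_eq_mul]
  exact mul_le_mul_of_nonneg_right (hP b) (hf b)

theorem sum_line (k : Fin n) (f : (Fin n → Fin M) → ℝ) :
    (∑ a, ∑ v, f (Function.update a k v)) = M * ∑ b, f b := by
  rw [sum_swp k, mul_sum]
  refine sum_congr rfl fun b _ => ?_
  simp only [Function.update_idem, Function.update_eq_self, sum_const, card_univ,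
    Fintype.card_fin, nsmul_eq_mul]

/-- A walk on a segment. -/
theorem walk_seg (h d : Fin M → ℝ) (hd : ∀ w, 0 ≤ d w)
    (hs : ∀ w w' : Fin M, |((w : ℕ) : ℤ) - ((w' : ℕ) : ℤ)| = 1 → h w ≤ h w' + d w) (u v : Fin M) :
    h u ≤ h v + ∑ w, d w := by
  let H : ℕ → ℝ := fun i => if hi : i < M then h ⟨i, hi⟩ else 0
  let Dn : ℕ → ℝ := fun i => if hi : i < M then d ⟨i, hi⟩ else 0
  have hH : ∀ w : Fin M, H w = h w := fun w => by simp only [H]; rw [dif_pos w.2]
  have hDn0 : ∀ i, 0 ≤ Dn i := fun i => by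
    simp only [Dn]; split_ifs
    · exact hd _
    · exact le_rfl
  have hsum : ∑ w, d w = ∑ i ∈ range M, Dn i := by
    rw [← Fin.sum_univ_eq_sum_range]
    refine sum_congr rfl fun w _ => ?_
    simp only [Dn]
    rw [dif_pos w.2]
  have hup : ∀ i j : ℕ, i ≤ j → j < M → H i ≤ H j + ∑ l ∈ Ico i j, Dn l := by
    intro i j hij
    induction j, hij using Nat.le_induction with
    | base => intro _; simp
    | succ j hij ih =>
      intro hj
      have h1 := ih (by omega)
      have h2 : H j ≤ H (j + 1) + Dn j := by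
        simp only [H, Dn]
        rw [dif_pos (show j < M by omega), dif_pos hj, dif_pos (show j < M by omega)]
        refine hs _ _ ?_
        simp
      rw [sum_Ico_succ_top hij]
      linarith
  have hdown : ∀ i j : ℕ, i ≤ j → j < M → H j ≤ H i + ∑ l ∈ Ico (i + 1) (j + 1), Dn l := by
    intro i j hij
    induction j, hij using Nat.le_induction with
    | base => intro _; simp
    | succ j hij ih =>
      intro hj
      have h1 := ih (by omega)
      have h2 : H (j + 1) ≤ H j + Dn (j + 1) := by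
        simp only [H, Dn]
        rw [dif_pos (show j < M by omega), dif_pos hj, dif_pos hj]
        refine hs _ _ ?_
        simp
      rw [sum_Ico_succ_top (by omega : i + 1 ≤ j + 1)]
      linarith
  rw [hsum, ← hH, ← hH]
  rcases le_total (u : ℕ) v with huv | huv
  · refine (hup u v huv v.2).trans ?_
    have : ∑ l ∈ Ico (u : ℕ) v, Dn l ≤ ∑ i ∈ range M, Dn i := by
      refine sum_le_sum_of_subset_of_nonneg ?_ fun i _ _ => hDn0 i
      intro i hi
      rw [mem_Ico] at hi
      exact mem_range.2 (by omega)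
    linarith
  · refine (hdown v u huv u.2).trans ?_
    have : ∑ l ∈ Ico ((v : ℕ) + 1) (u + 1), Dn l ≤ ∑ i ∈ range M, Dn i := by
      refine sum_le_sum_of_subset_of_nonneg ?_ fun i _ _ => hDn0 i
      intro i hi
      rw [mem_Ico] at hi
      exact mem_range.2 (by omega)
    linarith

/-- A walk on a line. -/
theorem walk_line (g Dd : (Fin n → Fin M) → ℝ) (hD : ∀ a, 0 ≤ Dd a)
    (hg : ∀ a a', Adj1 a a' → g a ≤ g a' + Dd a) (k : Fin n) (a : Fin n → Fin M) (u v : Fin M) :
    g (Function.update a k u) ≤ g (Function.update a k v) + ∑ w, Dd (Function.update a k w) := by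
  refine walk_seg (fun w => g (Function.update a k w)) (fun w => Dd (Function.update a k w))
    (fun w => hD _) (fun w w' hw => hg _ _ ⟨k, fun k' hk' => ?_, ?_⟩) u v
  · rw [Function.update_of_ne hk', Function.update_of_ne hk']
  · rw [Function.update_self, Function.update_self]; exact hw

end

/-! ### The slices with small support -/

section

variable {n L : ℕ}

open Classical in
theorem slice_small (hn : 0 < n) (hL : 0 < L) (g Dd : (Fin n → Fin L) → ℝ) (h0 : ∀ a, 0 ≤ g a)
    (hD : ∀ a, 0 ≤ Dd a) (hg : ∀ a a', Adj1 a a' → g a ≤ g a' + Dd a)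
    (hs : (#{a | g a ≠ 0} : ℝ) * (4 * n) ^ n < (L : ℝ) ^ n) :
    ∑ a, g a ≤ 1 / 4 * ∑ a, g a + L / 4 * ∑ a, Dd a := by
  obtain ⟨dir, hdir⟩ := dirThm n L {a | g a ≠ 0} hn hs
  have hn' : (0 : ℝ) < n := by exact_mod_cast hn
  have hL' : (0 : ℝ) < L := by exact_mod_cast hL
  have hq : ∀ k x, (#{v : Fin L | g (Function.update x k v) ≠ 0 ∧
      dir (Function.update x k v) = k} : ℝ) ≤ L / (4 * n) := by
    intro k x
    rw [le_div_iff₀ (by positivity)]
    refine le_trans (le_of_eq ?_) (hdir k x)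
    simp
  -- pointwise
  have hpt : ∀ a, g a ≤ ∑ k, ((1 / L) * (if g a ≠ 0 ∧ dir a = k then
      ∑ v, g (Function.update a k v) else 0) + (if g a ≠ 0 ∧ dir a = k then
      ∑ v, Dd (Function.update a k v) else 0)) := by
    intro a
    by_cases ha : g a = 0
    · rw [ha]
      refine sum_nonneg fun k _ => ?_
      simp
    · have h1 : ∀ k ∈ (univ : Finset (Fin n)), 0 ≤ ((1 / L) * (if g a ≠ 0 ∧ dir a = k then
          ∑ v, g (Function.update a k v) else 0) + (if g a ≠ 0 ∧ dir a = k then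
          ∑ v, Dd (Function.update a k v) else 0)) := by
        intro k _
        refine add_nonneg (mul_nonneg (by positivity) ?_) ?_
        · split_ifs
          · exact sum_nonneg fun v _ => h0 _
          · exact le_rfl
        · split_ifs
          · exact sum_nonneg fun v _ => hD _
          · exact le_rfl
      refine le_trans ?_ (single_le_sum h1 (mem_univ (dir a)))
      rw [if_pos ⟨ha, rfl⟩, if_pos ⟨ha, rfl⟩]
      have h2 : ∀ v : Fin L, g a ≤ g (Function.update a (dir a) v) +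
          ∑ w, Dd (Function.update a (dir a) w) := by
        intro v
        have := walk_line g Dd hD hg (dir a) a (a (dir a)) v
        rwa [Function.update_eq_self] at this
      have h3 : ∑ _v : Fin L, g a ≤ ∑ v : Fin L, (g (Function.update a (dir a) v) +
          ∑ w, Dd (Function.update a (dir a) w)) := sum_le_sum fun v _ => h2 v
      rw [sum_add_distrib, sum_const, sum_const, card_univ, Fintype.card_fin, nsmul_eq_mul,
        nsmul_eq_mul] at h3
      have h4 : g a = (1 / L) * (L * g a) := by field_simp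
      rw [h4]
      refine (mul_le_mul_of_nonneg_left h3 (by positivity)).trans (le_of_eq ?_)
      field_simp
  calc ∑ a, g a ≤ ∑ a, ∑ k, ((1 / L) * (if g a ≠ 0 ∧ dir a = k then
      ∑ v, g (Function.update a k v) else 0) + (if g a ≠ 0 ∧ dir a = k then
      ∑ v, Dd (Function.update a k v) else 0)) := sum_le_sum fun a _ => hpt a
    _ = ∑ k, ((1 / L) * ∑ a, (if g a ≠ 0 ∧ dir a = k then
      ∑ v, g (Function.update a k v) else 0) + ∑ a, (if g a ≠ 0 ∧ dir a = k then
      ∑ v, Dd (Function.update a k v) else 0)) := by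
        rw [sum_comm]
        refine sum_congr rfl fun k _ => ?_
        rw [sum_add_distrib, mul_sum]
    _ ≤ ∑ _k : Fin n, ((1 / L) * (L / (4 * n) * ∑ a, g a) + L / (4 * n) * ∑ a, Dd a) := by
        refine sum_le_sum fun k _ => add_le_add (mul_le_mul_of_nonneg_left ?_ (by positivity)) ?_
        · exact sum_lines k (fun a => g a ≠ 0 ∧ dir a = k) _ (hq k) g h0
        · exact sum_lines k (fun a => g a ≠ 0 ∧ dir a = k) _ (hq k) Dd hD
    _ = _ := by
        rw [sum_const, card_univ, Fintype.card_fin, nsmul_eq_mul]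
        field_simp

end

/-! ### The slices with large support -/

section

variable {n N L : ℕ}

open Classical in
theorem key_sum (hn : 0 < n) (T : Finset (Fin n → Fin N)) (dir : (Fin n → Fin N) → Fin n)
    (hq : ∀ k x, (#{v : Fin N | Function.update x k v ∈ T ∧
      dir (Function.update x k v) = k} : ℝ) ≤ N / (4 * n))
    (f : (Fin n → Fin N) → ℝ) (hf : ∀ c, 0 ≤ f c) :
    (∑ c ∈ T, ∑ j, f (Function.update c (dir c) j)) ≤ N / 4 * ∑ c, f c := by
  have hn' : (0 : ℝ) < n := by exact_mod_cast hn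
  have h1 : (∑ c ∈ T, ∑ j, f (Function.update c (dir c) j)) =
      ∑ k, ∑ c, if c ∈ T ∧ dir c = k then ∑ j, f (Function.update c k j) else 0 := by
    rw [sum_comm (s := univ) (t := univ), ← sum_subset (subset_univ T)]
    · refine sum_congr rfl fun c hc => ?_
      rw [sum_eq_single (dir c)]
      · rw [if_pos ⟨hc, rfl⟩]
      · intro k _ hk
        rw [if_neg fun h => hk h.2.symm]
      · intro h
        exact absurd (mem_univ _) h
    · intro c _ hc
      refine sum_eq_zero fun k _ => ?_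
      rw [if_neg fun h => hc h.1]
  have h2 : ∀ k ∈ (univ : Finset (Fin n)),
      (∑ c, if c ∈ T ∧ dir c = k then ∑ j, f (Function.update c k j) else 0) ≤
      (N : ℝ) / (4 * n) * ∑ c, f c := fun k _ =>
    sum_lines k (fun c => c ∈ T ∧ dir c = k) _ (hq k) f hf
  rw [h1]
  refine (sum_le_sum h2).trans (le_of_eq ?_)
  rw [sum_const, card_univ, Fintype.card_fin, nsmul_eq_mul]
  field_simp

/-- The sum over the points of weight zero in the direction. -/
theorem sum_zero (hL : 0 < L) (k : Fin n) (f : (Fin n → Fin L) → ℝ) :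
    (∑ a, f (Function.update a k ⟨0, hL⟩)) =
      L * ∑ a, if ((a : Fin n → Fin L) k : ℕ) = 0 then f a else 0 := by
  rw [← sum_line k (fun a => if ((a : Fin n → Fin L) k : ℕ) = 0 then f a else 0)]
  refine sum_congr rfl fun a _ => ?_
  rw [sum_eq_single (⟨0, hL⟩ : Fin L)]
  · rw [Function.update_self, if_pos rfl]
  · intro w _ hw
    rw [Function.update_self, if_neg]
    intro h3
    exact hw (Fin.ext h3)
  · intro h3
    exact absurd (mem_univ _) h3

theorem err_sum (hL : 0 < L) (T : Finset (Fin n → Fin N)) (dir : (Fin n → Fin N) → Fin n)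
    (e : Fin n → (Fin n → Fin N) → (Fin n → Fin L) → ℝ) (he0 : ∀ k c a, 0 ≤ e k c a) :
    (∑ c ∈ T, ∑ a, e (dir c) c (Function.update a (dir c) ⟨0, hL⟩)) ≤
      L * ∑ k, ∑ c, ∑ a, if ((a : Fin n → Fin L) k : ℕ) = 0 then e k c a else 0 := by
  have hL' : (0 : ℝ) < L := by exact_mod_cast hL
  have h3 : ∀ k c, 0 ≤ ∑ a, if ((a : Fin n → Fin L) k : ℕ) = 0 then e k c a else 0 :=
    fun k c => sum_nonneg fun a _ => by
      split_ifs
      · exact he0 _ _ _
      · exact le_rfl
  calc (∑ c ∈ T, ∑ a, e (dir c) c (Function.update a (dir c) ⟨0, hL⟩))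
      = ∑ c ∈ T, L * ∑ a, (if ((a : Fin n → Fin L) (dir c) : ℕ) = 0 then e (dir c) c a else 0) :=
        sum_congr rfl fun c _ => sum_zero hL (dir c) (e (dir c) c)
    _ ≤ ∑ c ∈ T, L * ∑ k, ∑ a, (if ((a : Fin n → Fin L) k : ℕ) = 0 then e k c a else 0) := by
        refine sum_le_sum fun c _ => mul_le_mul_of_nonneg_left ?_ hL'.le
        exact single_le_sum (f := fun k => ∑ a, (if ((a : Fin n → Fin L) k : ℕ) = 0 then
          e k c a else 0)) (fun k _ => h3 k c) (mem_univ (dir c))
    _ ≤ ∑ c, L * ∑ k, ∑ a, (if ((a : Fin n → Fin L) k : ℕ) = 0 then e k c a else 0) :=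
        sum_le_sum_of_subset_of_nonneg (subset_univ _) fun c _ _ =>
          mul_nonneg hL'.le (sum_nonneg fun k _ => h3 k c)
    _ = _ := by
        rw [← mul_sum, sum_comm]

/-- The bound at a point. -/
theorem point_bound (hN : 0 < N) (hL : 0 < L) (ψ D : (Fin n → Fin N) → (Fin n → Fin L) → ℝ)
    (hD : ∀ c a, 0 ≤ D c a) (hadj : ∀ c a a', Adj1 a a' → ψ c a ≤ ψ c a' + D c a)
    (c : Fin n → Fin N) (k : Fin n) (a : Fin n → Fin L) :
    ψ c a ≤ (∑ w, D c (Function.update a k w)) +
      (∑ j, max 0 (ψ c (Function.update a k ⟨0, hL⟩) -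
        ψ (Function.update c k j) (Function.update a k ⟨0, hL⟩))) / N +
      (1 / N) * (∑ j, ψ (Function.update c k j) a) +
      (1 / N) * ∑ j, ∑ w, D (Function.update c k j) (Function.update a k w) := by
  have hN' : (0 : ℝ) < N := by exact_mod_cast hN
  have h1 : ∀ j : Fin N, ψ c a ≤ (∑ w, D c (Function.update a k w)) +
      max 0 (ψ c (Function.update a k ⟨0, hL⟩) -
        ψ (Function.update c k j) (Function.update a k ⟨0, hL⟩)) +
      ψ (Function.update c k j) a +
      ∑ w, D (Function.update c k j) (Function.update a k w) := by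
    intro j
    have h2 := walk_line (ψ c) (D c) (hD c) (hadj c) k a (a k) ⟨0, hL⟩
    rw [Function.update_eq_self] at h2
    have h3 := walk_line (ψ (Function.update c k j)) (D (Function.update c k j)) (hD _)
      (hadj _) k a ⟨0, hL⟩ (a k)
    rw [Function.update_eq_self] at h3
    have h4 := le_max_right 0 (ψ c (Function.update a k ⟨0, hL⟩) -
        ψ (Function.update c k j) (Function.update a k ⟨0, hL⟩))
    linarith
  have h2 : ∑ _j : Fin N, ψ c a ≤ ∑ j : Fin N, ((∑ w, D c (Function.update a k w)) +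
      max 0 (ψ c (Function.update a k ⟨0, hL⟩) -
        ψ (Function.update c k j) (Function.update a k ⟨0, hL⟩)) +
      ψ (Function.update c k j) a +
      ∑ w, D (Function.update c k j) (Function.update a k w)) := sum_le_sum fun j _ => h1 j
  rw [sum_add_distrib, sum_add_distrib, sum_add_distrib, sum_const, sum_const, card_univ,
    Fintype.card_fin, nsmul_eq_mul, nsmul_eq_mul] at h2
  have h4 : ψ c a = (1 / N) * (N * ψ c a) := by field_simp
  rw [h4]
  refine (mul_le_mul_of_nonneg_left h2 (by positivity)).trans (le_of_eq ?_)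
  field_simp

open Classical in
theorem large_part (hn : 0 < n) (hN : 0 < N) (hL : 0 < L)
    (ψ D : (Fin n → Fin N) → (Fin n → Fin L) → ℝ) (hψ : ∀ c a, 0 ≤ ψ c a)
    (hD : ∀ c a, 0 ≤ D c a) (hadj : ∀ c a a', Adj1 a a' → ψ c a ≤ ψ c a' + D c a)
    (T : Finset (Fin n → Fin N)) (hT : (#T : ℝ) * (4 * n) ^ n < (N : ℝ) ^ n) :
    (∑ c ∈ T, ∑ a, ψ c a) ≤ L * (∑ c ∈ T, ∑ a, D c a) +
      (L * ∑ k, ∑ c, ∑ a, if ((a : Fin n → Fin L) k : ℕ) = 0 then
        (∑ j, max 0 (ψ c a - ψ (Function.update c k j) a)) / (N : ℝ) else 0) +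
      1 / 4 * (∑ c, ∑ a, ψ c a) + L / 4 * ∑ c, ∑ a, D c a := by
  have hN' : (0 : ℝ) < N := by exact_mod_cast hN
  have hL' : (0 : ℝ) < L := by exact_mod_cast hL
  have hn' : (0 : ℝ) < n := by exact_mod_cast hn
  obtain ⟨dir, hdir⟩ := dirThm n N T hn hT
  have hq : ∀ k x, (#{v : Fin N | Function.update x k v ∈ T ∧
      dir (Function.update x k v) = k} : ℝ) ≤ N / (4 * n) := by
    intro k x
    rw [le_div_iff₀ (by positivity)]
    exact hdir k x
  have hP1 : (∑ c ∈ T, ∑ a, ∑ w, D c (Function.update a (dir c) w)) =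
      L * ∑ c ∈ T, ∑ a, D c a := by
    rw [mul_sum]
    exact sum_congr rfl fun c _ => sum_line (dir c) (D c)
  have hP2 := err_sum hL T dir
    (fun k c a => (∑ j, max 0 (ψ c a - ψ (Function.update c k j) a)) / (N : ℝ))
    (fun k c a => div_nonneg (sum_nonneg fun j _ => le_max_left _ _) hN'.le)
  have hP3 : (∑ c ∈ T, ∑ a, (1 / (N : ℝ)) * ∑ j, ψ (Function.update c (dir c) j) a) ≤
      1 / 4 * ∑ c, ∑ a, ψ c a := by
    have h1 := key_sum hn T dir hq (fun c => ∑ a, ψ c a) fun c => sum_nonneg fun a _ => hψ c a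
    have h2 : (∑ c ∈ T, ∑ a, (1 / (N : ℝ)) * ∑ j, ψ (Function.update c (dir c) j) a) =
        (1 / N) * ∑ c ∈ T, ∑ j, ∑ a, ψ (Function.update c (dir c) j) a := by
      rw [mul_sum]
      refine sum_congr rfl fun c _ => ?_
      rw [← mul_sum, sum_comm]
    rw [h2]
    refine (mul_le_mul_of_nonneg_left h1 (by positivity)).trans (le_of_eq ?_)
    field_simp
  have hP4 : (∑ c ∈ T, ∑ a, (1 / (N : ℝ)) * ∑ j, ∑ w,
      D (Function.update c (dir c) j) (Function.update a (dir c) w)) ≤
      L / 4 * ∑ c, ∑ a, D c a := by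
    have h1 := key_sum hn T dir hq (fun c => ∑ a, D c a) fun c => sum_nonneg fun a _ => hD c a
    have h2 : (∑ c ∈ T, ∑ a, (1 / (N : ℝ)) * ∑ j, ∑ w,
        D (Function.update c (dir c) j) (Function.update a (dir c) w)) =
        (L / N) * ∑ c ∈ T, ∑ j, ∑ a, D (Function.update c (dir c) j) a := by
      rw [mul_sum]
      refine sum_congr rfl fun c _ => ?_
      rw [← mul_sum, sum_comm, mul_sum, mul_sum]
      refine sum_congr rfl fun j _ => ?_
      rw [sum_line (dir c) (D (Function.update c (dir c) j))]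
      field_simp
    rw [h2]
    refine (mul_le_mul_of_nonneg_left h1 (by positivity)).trans (le_of_eq ?_)
    field_simp
  have h0 : (∑ c ∈ T, ∑ a, ψ c a) ≤ ∑ c ∈ T, ∑ a, ((∑ w, D c (Function.update a (dir c) w)) +
        (∑ j, max 0 (ψ c (Function.update a (dir c) ⟨0, hL⟩) -
          ψ (Function.update c (dir c) j) (Function.update a (dir c) ⟨0, hL⟩))) / N +
        (1 / N) * (∑ j, ψ (Function.update c (dir c) j) a) +
        (1 / N) * ∑ j, ∑ w, D (Function.update c (dir c) j) (Function.update a (dir c) w)) :=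
    sum_le_sum fun c _ => sum_le_sum fun a _ => point_bound hN hL ψ D hD hadj c (dir c) a
  simp only [sum_add_distrib] at h0
  rw [hP1] at h0
  linarith

end

/-! ### The pruning lemma -/

open Classical in
theorem card_T {n N L : ℕ} (hn : 0 < n) (hL : 0 < L)
    (ψ : (Fin n → Fin N) → (Fin n → Fin L) → ℝ)
    (hsupp : (#{z : (Fin n → Fin N) × (Fin n → Fin L) | ψ z.1 z.2 ≠ 0} : ℝ) * (4 * n) ^ (2 * n) <
      (N : ℝ) ^ n * (L : ℝ) ^ n) :
    (#{c | (L : ℝ) ^ n ≤ (#{a | ψ c a ≠ 0} : ℝ) * (4 * n) ^ n} : ℝ) * (4 * n) ^ n <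
      (N : ℝ) ^ n := by
  have hL' : (0 : ℝ) < L := by exact_mod_cast hL
  have hn' : (0 : ℝ) < n := by exact_mod_cast hn
  set T : Finset (Fin n → Fin N) :=
    {c | (L : ℝ) ^ n ≤ (#{a | ψ c a ≠ 0} : ℝ) * (4 * n) ^ n} with hTdef
  have h1 : (#T : ℝ) * (L : ℝ) ^ n ≤
      (#{z : (Fin n → Fin N) × (Fin n → Fin L) | ψ z.1 z.2 ≠ 0} : ℝ) * (4 * n) ^ n := by
    have h2 : (#{z : (Fin n → Fin N) × (Fin n → Fin L) | ψ z.1 z.2 ≠ 0} : ℝ) =
        ∑ c, (#{a | ψ c a ≠ 0} : ℝ) := by
      rw [card_filter, Fintype.sum_prod_type]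
      push_cast
      refine sum_congr rfl fun c _ => ?_
      rw [card_filter]
      push_cast
      rfl
    rw [h2, sum_mul]
    calc (#T : ℝ) * (L : ℝ) ^ n = ∑ _c ∈ T, (L : ℝ) ^ n := by rw [sum_const, nsmul_eq_mul]
      _ ≤ ∑ c ∈ T, (#{a | ψ c a ≠ 0} : ℝ) * (4 * n) ^ n :=
          sum_le_sum fun c hc => (mem_filter.1 hc).2
      _ ≤ _ := sum_le_sum_of_subset_of_nonneg (subset_univ _) fun c _ _ => by positivity
  have h3 : (#T : ℝ) * (4 * n) ^ n * (L : ℝ) ^ n < (N : ℝ) ^ n * (L : ℝ) ^ n := by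
    refine lt_of_le_of_lt ?_ hsupp
    calc (#T : ℝ) * (4 * n) ^ n * (L : ℝ) ^ n = ((#T : ℝ) * (L : ℝ) ^ n) * (4 * n) ^ n := by ring
      _ ≤ ((#{z : (Fin n → Fin N) × (Fin n → Fin L) | ψ z.1 z.2 ≠ 0} : ℝ) * (4 * n) ^ n) *
          (4 * n) ^ n := mul_le_mul_of_nonneg_right h1 (by positivity)
      _ = _ := by rw [two_mul, pow_add]; ring
  exact lt_of_mul_lt_mul_right h3 (by positivity)

theorem pruneThm : PruneThm := by
  classical
  intro n N L hn hN hL ψ D hψ hD hadj hsupp
  have hL' : (0 : ℝ) < L := by exact_mod_cast hL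
  have hTcard := card_T hn hL ψ hsupp
  obtain ⟨T, hT⟩ : ∃ T : Finset (Fin n → Fin N),
    T = ({c | (L : ℝ) ^ n ≤ (#{a | ψ c a ≠ 0} : ℝ) * (4 * n) ^ n} : Finset _) := ⟨_, rfl⟩
  rw [← hT] at hTcard
  have hTl := large_part hn hN hL ψ D hψ hD hadj T hTcard
  -- the sum outside `T`
  have hTc : (∑ c ∈ Tᶜ, ∑ a, ψ c a) ≤ 1 / 4 * (∑ c ∈ Tᶜ, ∑ a, ψ c a) +
      L / 4 * ∑ c ∈ Tᶜ, ∑ a, D c a := by
    have h1 : ∀ c ∈ Tᶜ, ∑ a, ψ c a ≤ 1 / 4 * ∑ a, ψ c a + L / 4 * ∑ a, D c a := by
      intro c hc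
      refine slice_small hn hL (ψ c) (D c) (hψ c) (hD c) (hadj c) ?_
      rw [mem_compl, hT, mem_filter, not_and] at hc
      exact not_le.1 (hc (mem_univ _))
    refine (sum_le_sum h1).trans (le_of_eq ?_)
    rw [sum_add_distrib, ← mul_sum, ← mul_sum]
  have e1 : ∑ c, ∑ a, ψ c a = ∑ c ∈ T, ∑ a, ψ c a + ∑ c ∈ Tᶜ, ∑ a, ψ c a :=
    (sum_add_sum_compl T fun c => ∑ a, ψ c a).symm
  have e2 : ∑ c, ∑ a, D c a = ∑ c ∈ T, ∑ a, D c a + ∑ c ∈ Tᶜ, ∑ a, D c a :=
    (sum_add_sum_compl T fun c => ∑ a, D c a).symm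
  have hψT : 0 ≤ ∑ c ∈ T, ∑ a, ψ c a := sum_nonneg fun c _ => sum_nonneg fun a _ => hψ c a
  have hDT : 0 ≤ ∑ c ∈ T, ∑ a, D c a := sum_nonneg fun c _ => sum_nonneg fun a _ => hD c a
  have hDTc : 0 ≤ ∑ c ∈ Tᶜ, ∑ a, D c a := sum_nonneg fun c _ => sum_nonneg fun a _ => hD c a
  have h5 : (0 : ℝ) ≤ L * ∑ c ∈ T, ∑ a, D c a := mul_nonneg hL'.le hDT
  have h6 : (0 : ℝ) ≤ L * ∑ c ∈ Tᶜ, ∑ a, D c a := mul_nonneg hL'.le hDTc
  have e3 : (L : ℝ) * ∑ c, ∑ a, D c a = L * (∑ c ∈ T, ∑ a, D c a) +
      L * ∑ c ∈ Tᶜ, ∑ a, D c a := by rw [e2]; ring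
  have e4 : 3 * (L : ℝ) * ∑ c, ∑ a, D c a = 3 * (L * ∑ c, ∑ a, D c a) := by ring
  have e5 : (L : ℝ) / 4 * ∑ c, ∑ a, D c a = 1 / 4 * (L * ∑ c, ∑ a, D c a) := by ring
  have e6 : (L : ℝ) / 4 * ∑ c ∈ Tᶜ, ∑ a, D c a = 1 / 4 * (L * ∑ c ∈ Tᶜ, ∑ a, D c a) := by ring
  rw [e4]
  rw [e5] at hTl
  rw [e6] at hTc
  linarith

end Vale.Agent.P325.H756.K2
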